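import Crest.Agent.X262.Lh39.Blw
import Crest.Agent.X262.Blow.Smz
import Crest.Agent.X262.Bl53.Defs
import Crest.Agent.X262.Geo.Dv

/-!
# Row 262, LH (helper39), part 4: the blow-up of a smooth surface in a smooth fourfold

* `ofGens h G hv` : the blow-up `G.bl h` as a `Chn.Bw`;
* `blowGStmt`, `blowStmt`.
-/

set_option autoImplicit false

open Set WithZero

noncomputable section

namespace Crest.Agent.X262.Lh39

open Crest.Agent.X277 Crest.Agent.X277.Lef Crest.Agent.X277.AN.G1 Crest.Agent.X277.BD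
open Crest.Agent.X277.BD.Br (At oP at_mxf mxf_mem oP_mem)
open Crest.Agent.X277.BD.Cyc (Rf)
open Crest.Agent.X277.Pst (Prm loc)
open Crest.Agent.X277.Res.Out (Van)
open Crest.Agent.X277.Res.Log (vr mem_vr)
open Crest.Agent.X262.Coh Crest.Agent.X262.Blow

variable {F κ : Type} [Field F] [Algebra ℂ F] [Field κ] [Algebra ℂ κ] {P : PModel ℂ F}
  {q : Plc F κ} {c d : ℕ} {v : Valuation F ℤᵐ⁰}

/-- the residue map of a valuation -/
def rsd (hv : ∀ c : ℂ, v (algebraMap ℂ F c) ≤ 1) : vr v hv →ₐ[ℂ] Rf (rz v hv) where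
  toFun a := IsLocalRing.residue (rz v hv).1 ⟨a, a.2⟩
  map_one' := map_one (IsLocalRing.residue (rz v hv).1)
  map_mul' a b := map_mul (IsLocalRing.residue (rz v hv).1) ⟨a, a.2⟩ ⟨b, b.2⟩
  map_zero' := map_zero (IsLocalRing.residue (rz v hv).1)
  map_add' a b := map_add (IsLocalRing.residue (rz v hv).1) ⟨a, a.2⟩ ⟨b, b.2⟩
  commutes' _ := rfl

theorem excP_rsd (hv : ∀ c : ℂ, v (algebraMap ℂ F c) ≤ 1) : ExcP v (plcAt (rsd hv)) :=
  excP_plcAt (fun _ => mem_vr) _ (fun z => by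
    obtain ⟨a, rfl⟩ := IsLocalRing.residue_surjective (R := (rz v hv).1) z
    exact ⟨⟨a, a.2⟩, rfl⟩) fun a ha =>
      (IsLocalRing.residue_eq_zero_iff (R := (rz v hv).1) ⟨a, a.2⟩).2
        ((Valuation.mem_maximalIdeal_iff _ v).2 ha)

variable {h : SmC P q c d} {G : Gens P q}

theorem ge_bl (h : SmC P q c d) (G : Gens P q) : Chn.Ge (G.bl h) P := mxf_mem fun x' => by
  obtain ⟨a, ha⟩ := exists_pat ((G.r h).map x')
  exact ⟨a, P.y_ne a, fun l => (Gens.r_dom x').le (y_mem ha l)⟩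

theorem at_e {x' : Pts (G.bl h)} {a : Fin (P.N + 1)} {k : Fin (G.M + 1)}
    (ha : (G.r h).map x' ∈ pat P a) (hk : ∀ l, G.f l / G.f k ∈ (lp x').O) :
    At (G.m • oP P - mxf ℂ G.f) x' (G.g a k)⁻¹ := by
  rw [inv_div]
  exact ((at_mxf (x := x') (P.y_ne a) fun l => (Gens.r_dom x').le (y_mem ha l)).nsmul G.m).sub
    (at_mxf (G.ne k) hk)

theorem isEmb_md {Z : PModel ℂ κ} (hZ : Md q P Z) : IsEmb (X := sv Z) (Y := sv P) hZ.mor :=
  ⟨hZ.injective, fun z g hg => (hZ.ov z).surj g hg⟩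

/-- the exceptional divisor -/
theorem isDv_exc {K : Type} [Field K] [Algebra ℂ K] {p : Plc F K} {E : PModel ℂ K}
    (hv : IsOrd q v) (hp : ExcP v p) (hE : Md p (G.bl h) E) :
    IsDv (X := sv E) (Y := sv (G.bl h)) hE.mor (G.m • oP P - mxf ℂ G.f) where
  emb := isEmb_md hE
  off y hy := by
    obtain ⟨a, ha⟩ := exists_pat ((G.r h).map y)
    obtain ⟨k, hk⟩ := Gens.exists_gen (h := h) y
    have h1 := (at_e ha hk).mul_unit (hv.ev_g_ne (mt hp.le_iff.2 (mt hE.mem_range.2 hy)) ha hk)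
    rwa [mul_inv_cancel₀ (G.g_ne a k)] at h1
  eqn x := by
    obtain ⟨a, ha⟩ := exists_pat ((G.r h).map (hE.mor.map x))
    obtain ⟨k, hk⟩ := Gens.exists_gen (h := h) (hE.mor.map x)
    have h1 := hv.eqn_g (hp.le_iff.1 (hE.ov x).le) ha hk
    refine ⟨_, h1.mem, at_e ha hk, fun f hf => (hp.eq_iff (h1.loc.le f hf)).trans
      ⟨h1.div f hf, fun h2 => ?_⟩⟩
    rw [← div_mul_cancel₀ f (G.g_ne a k), map_mul, h1.val]
    exact (mul_le_of_le_one_left' (h1.loc.le _ h2)).trans_lt (by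
      rw [← exp_zero, exp_lt_exp]; decide)

theorem prm_bl (hv : IsOrd q v) (hc : 0 < c) (W : RZ ℂ F) :
    Prm (oP (G.bl h)) W ↔ W = rz v hv.triv ∨ Prm (oP P) W := by
  have := Geo.eft P
  refine ⟨fun h1 => ?_, ?_⟩
  · rcases (hv.isPD_bl G h hc).1 (Geo.isPD_nv h1) with h2 | h2
    · refine Or.inl ?_
      subst h2
      exact (Geo.rz_nv h1.dvs).symm
    · exact Or.inr ((Geo.prm_iff_isPD h1.dvs).2 h2)
  · rintro (rfl | h1)
    exacts [Geo.prm_of_isPD (hv.isPD G h hc), Geo.prm_up (ge_bl h G) h1]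

theorem pri_bl (h : SmC P q c d) (G : Gens P q) (W : RZ ℂ F) (hW : ∀ f ∈ q.O, f ∈ W.1) :
    ∃ g, Van q.O g ∧ g ≠ 0 ∧ ∀ f, Van q.O f → f / g ∈ loc (oP (G.bl h)) W := by
  have := Geo.eft P
  obtain ⟨x, hx⟩ := h.ne
  obtain ⟨a, ha⟩ := exists_pat x
  obtain ⟨x', h1⟩ := Geo.exists_ov (P := G.bl h) W
  obtain ⟨k, hk⟩ := Gens.exists_gen (h := h) x'
  have h2 : (lp x).O ≤ loc (oP (G.bl h)) W := fun f hf =>
    (Geo.car_of_On (ge_bl h G)).loc_le W (Geo.lp_le_loc (fun f hf => hW f (hx hf)) hf)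
  refine ⟨G.g a k, van_plc.2 ⟨hx (Gens.g_mem ha k), G.van k a ((A_le ha).trans hx)⟩, G.g_ne a k,
    fun f hf => ?_⟩
  obtain ⟨h3, h4⟩ := van_plc.1 hf
  obtain ⟨u, hu, t, ht, h5, h6⟩ := h.loc x hx f h3
  have h7 := ((G.gen a x ha u hu fun _ => by
    rw [← h6, q.π_mul h3 (hx ht), h4, zero_mul]).mono h2).div_mem (g := G.g a k) fun l =>
      G.g_div a l k ▸ Geo.lp_le_loc h1 (hk l)
  have h8 := mul_mem h7 (Neg.inv_mem_loc (h2 ht) (Cns.un_iff_val.1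
    ⟨Plc.ne_zero_of_ne h5, hW _ (hx ht), hW _ (q.inv_mem h5)⟩))
  rwa [← h6, ← div_eq_mul_inv, div_right_comm, mul_div_cancel_right₀ _ (Plc.ne_zero_of_ne h5)]
    at h8

theorem lcl_md (h : SmC P q c d) {Z : PModel ℂ κ} (hZ : Md q P Z) (z : Pts Z) (f : F)
    (hf : f ∈ q.O) : ∃ c ∈ (lp (hZ.mor.map z)).O, q.π c ≠ 0 ∧ c * f ∈ (lp (hZ.mor.map z)).O := by
  obtain ⟨u, hu, t, ht, h1, h2⟩ := h.loc _ (hZ.ov z).le f hf
  exact ⟨t, ht, h1, by rwa [mul_comm, h2]⟩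

theorem rat_md {K : Type} [Field K] [Algebra ℂ K] {p : Plc F K} (h : SmC P q 2 d)
    (hv : IsOrd q v) (hp : ExcP v p) : Nonempty (K ≃ₐ[ℂ] RatFunc κ) := by
  obtain ⟨x, hx⟩ := h.ne
  obtain ⟨s, w, ha⟩ := h.crd x hx
  exact ⟨(rat_exc h hv hp (ha.coI h)).choose⟩

theorem mor_map (h : SmC P q c d) (G : Gens P q) (x' : Pts (G.bl h)) :
    Mor.map (P' := G.bl h) (P := P) (Chn.mor (ge_bl h G)) x' = (G.r h).map x' :=
  (Gens.r_eq (h := h) (x' := x') (Form88.bir_dom (W := G.bl h) (Y := P)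
    (μ := Chn.mor (ge_bl h G)) rfl x')).symm

theorem comm_md {K : Type} [Field K] [Algebra ℂ K] {p : Plc F K} (h : SmC P q c d)
    (G : Gens P q) (hv : IsOrd q v) (hp : ExcP v p) {E : PModel ℂ K} (hE : Md p (G.bl h) E)
    {Z : PModel ℂ κ} (hZ : Md q P Z) :
    (Mor.comp (P'' := E) (P' := G.bl h) (P := P) (Chn.mor (ge_bl h G)) hE.mor).map =
      (Mor.comp hZ.mor (prj hv hp hE hZ)).map := funext fun x =>
  ((Mor.comp_map (P'' := E) (P' := G.bl h) (P := P) (Chn.mor (ge_bl h G)) hE.mor x).trans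
    ((mor_map h G _).trans (prj_comm hv hp hE hZ x).symm)).trans (Mor.comp_map _ _ x).symm

/-- **the blow-up** -/
def ofGens (h : SmC P q 2 2) (G : Gens P q) (hv : IsOrd q v) {p : Plc F (Rf (rz v hv.triv))}
    (hp : ExcP v p) {E : PModel ℂ (Rf (rz v hv.triv))} (hE : Md p (G.bl h) E) {Z : PModel ℂ κ}
    (hZ : Md q P Z) : Chn.Bw F where
  lo := P
  hi := G.bl h
  ge := ge_bl h G
  Z := sv Z
  E := sv E
  i := hZ.mor
  j := hE.mor
  π := prj hv hp hE hZ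
  e := G.m • oP P - mxf ℂ G.f
  V := rz v hv.triv
  dimK := h.finrank_F
  dimE := (smC_exc G h hv hp two_pos (d' := 3) rfl).finrank_κ
  dimZ := h.finrank_κ
  emb := isEmb_md hZ
  dv := isDv_exc hv hp hE
  comm := comm_md h G hv hp hE hZ
  along := hp.mem
  lcl := lcl_md h hZ
  prm := prm_bl hv two_pos
  nprm := mt (Geo.isPD_iff_prm hv.triv (hv.nrm h two_pos)).2 (hv.not_isPD h le_rfl)
  pri := pri_bl h G
  rat := rat_md h hv hp

theorem blowGStmt {C : Th} (A : C.Ax) : Bl53.BlowGStmt C := fun K _ _ V O hO => by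
  obtain ⟨κ, _, _, q, rfl, h⟩ := exists_smC (c := 2) (d := 2) rfl hO.ne hO.loc hO.crd
  obtain ⟨G⟩ := h.exists_gens two_pos
  obtain ⟨v, hv⟩ := h.exists_ord two_pos
  have hp := excP_rsd hv.triv
  exact ⟨ofGens h G hv hp (smC_exc G h hv hp two_pos (d' := 3) rfl).md h.md, rfl, rfl,
    lh_bl A _ h G rfl rfl, h, G, rfl, rfl⟩

theorem blowStmt {C : Th} (A : C.Ax) : Chn.BlowStmt C := fun K _ _ V O hO =>
  (blowGStmt A K V O hO).imp fun _ h => ⟨h.1, h.2.1, h.2.2.1⟩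

end Crest.Agent.X262.Lh39
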