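import Crest.Agent.X262.Lh39.Main
import Crest.Agent.X262.Blow.Mod
import Crest.Agent.X262.Chn.Defs

/-!
# Row 262, LH (helper39), part 3: the exceptional divisor of the blow-up of a codimension two centre

* `exists_pb` : the exceptional divisor is a bundle of lines;
* `lh_bl`     : `b.LH C` for every `b : Bw K` whose upper model is `g.bl h`.
-/

set_option autoImplicit false

open Set

noncomputable section

namespace Crest.Agent.X262.Lh39

open Crest.Agent.X277 Crest.Agent.X277.Lef Crest.Agent.X277.AN.G1 Crest.Agent.X277.BD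
open Crest.Agent.X277.BD.Br (At oP at_mxf mxf_mem oP_mem)
open Crest.Agent.X262.Coh Crest.Agent.X262.Form88 Crest.Agent.X262.Blow

variable {F : Type} [Field F] [Algebra ℂ F] {P : PModel ℂ F} {E Z : SV} {i : Hom Z (sv P)} {d : ℕ}
  {h : SmC P i.p 2 d} {G : Gens P i.p} {j : Hom E (sv (G.bl h))} {π : Hom E Z}

theorem gn_f (h : SmC P i.p 2 d) (G : Gens P i.p) : Cns.Gn (G.bl h) G.f := fun x' =>
  (Gens.exists_gen x').imp fun k hk => ⟨G.ne k, hk⟩

theorem exists_frame (hj : IsEmb j) (hc : ∀ x, (G.r h).map (j.map x) = i.map (π.map x))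
    (hs : ∀ x', (lp ((G.r h).map x')).O ≤ i.p.O → x' ∈ range j.map)
    {α : Z.F →ₐ[ℂ] E.F} (hp : π.p = Plc.ofHom α) {k₀ : Fin (G.M + 1)}
    (h0 : ∀ k, G.f k / G.f k₀ ∈ j.p.O) (z : Z.Pt) :
    ∃ σ, Frame π α (fun k => j.p.π (G.f k / G.f k₀)) z σ ∧
      ∀ f, f ∈ Subfield.closure (range α ∪ {σ 1 / σ 0}) := by
  obtain ⟨a, ha⟩ := exists_pat (i.map z)
  obtain ⟨s, w, hA⟩ := h.crd (i.map z) (le_map i z)
  obtain ⟨x₁, hx₁⟩ := Cns.hom_surjective hp z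
  have h1 : ∀ {x}, π.map x = z → (G.r h).map (j.map x) = i.map z := fun hx => hx ▸ hc _
  have h2 : (lp (i.map z)).O ≤ j.p.O := h1 hx₁ ▸ (Gens.r_dom (j.map x₁)).le.trans (le_map j x₁)
  have h3 : ∀ f ∈ (lp (i.map z)).O, j.p.π f = α (i.p.π f) := fun f hf => by
    have h3 := π_congr (μ := Mor.comp (G.r h) j) (ν := Mor.comp i π) (q₀ := x₁) (f := f)
      (fun q => by rw [Mor.comp_map, Mor.comp_map, hc]) (by rwa [Mor.comp_map, h1 hx₁])
    change j.p.π f = π.p.π (i.p.π f) at h3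
    rwa [hp] at h3
  set c := P.y a ^ G.m / G.f k₀ with hcd
  have hc0 : c ≠ 0 := div_ne_zero (pow_ne_zero _ (P.y_ne a)) (G.ne k₀)
  have h4 : ∀ k, G.g a k * c = G.f k / G.f k₀ := fun k =>
    div_mul_div_cancel₀ (pow_ne_zero _ (P.y_ne a))
  have h5 : ∀ {ι : Type} [Fintype ι] {t : ι → F} {b : F}, InI (lp (i.map z)).O t b →
      (∀ l, t l * c ∈ j.p.O) → b * c ∈ j.p.O ∧ ∃ r : ι → Z.F, (∀ l, r l ∈ (lp z).O) ∧
        j.p.π (b * c) = ∑ l, α (r l) * j.p.π (t l * c) := by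
    rintro ι _ t _ ⟨r, hr, rfl⟩ ht
    simp only [Finset.sum_mul, mul_assoc]
    refine ⟨sum_mem fun l _ => mul_mem (h2 (hr l)) (ht l), fun l => i.p.π (r l),
      fun l => i.π_mem (hr l), ?_⟩
    rw [Strat.Fac.π_sum _ fun l _ => mul_mem (h2 (hr l)) (ht l)]
    exact Finset.sum_congr rfl fun l _ => by rw [j.p.π_mul (h2 (hr l)) (ht l), h3 _ (hr l)]
  have h6 := fun l => h5 (Gens.inI_s (G := G) hA ha l) fun k => h4 k ▸ h0 k
  have h7 : ∀ {l}, j.p.π (s l * c) ≠ 0 → ∀ m, s m / s l ∈ j.p.O ∧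
      j.p.π (s m / s l) = j.p.π (s m * c) / j.p.π (s l * c) := fun {l} hl m => by
    rw [← mul_div_mul_right _ _ hc0]
    exact ⟨Plc.div_mem (h6 m).1 hl, Plc.π_div (h6 m).1 hl⟩
  have h8 : ∀ {x l}, Over (lp (i.map z)) (lp (j.map x)) s l → j.p.π (s l * c) ≠ 0 := by
    intro x l ho h8
    have h9 := j.p.π_mul (j.mem_O (((Gens.inI_g (G := G) hA ha k₀).mono ho.dom.le).div_mem ho.mem))
      (h6 l).1
    rw [h8, mul_zero, ← mul_assoc, div_mul_cancel₀ _ (hA.s_ne l), h4, div_self (G.ne k₀),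
      Plc.π_one] at h9
    exact one_ne_zero h9
  have h9 : ∀ {x}, π.map x = z → ∃ l, Over (lp (i.map z)) (lp (j.map x)) s l := fun hx =>
    h1 hx ▸ Gens.exists_chart (h1 hx ▸ hA)
  have h10 : ∀ {x l}, π.map x = z → j.p.π (s l * c) ≠ 0 →
      (∀ m, j.p.π (s m * c) / j.p.π (s l * c) ∈ (lp x).O) →
      Over (lp (i.map z)) (lp (j.map x)) s l := fun {x l} hx hl hm => by
    obtain ⟨l', ho⟩ := h9 hx
    refine ho.change (hA.s_ne l') ?_
    rw [← ev, j.ev_map (ho.mem l), (h7 (h8 ho) l).2]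
    exact LP.ne_of_inv_mem ((h7 (h8 ho) l).2 ▸ j.π_mem (ho.mem l)) (div_ne_zero hl (h8 ho))
      (by rw [inv_div]; exact hm l')
  refine ⟨fun l => j.p.π (s l * c), ⟨fun k => ?_, fun l => ?_, fun x hx => ?_,
    fun x x' l hx hx' hl hm hm' hv => ?_⟩, fun f => ?_⟩
  · simpa only [h4] using (h5 (Gens.inI_g (G := G) hA ha k) fun l => (h6 l).1).2
  · simpa only [h4] using (h6 l).2
  · obtain ⟨l, ho⟩ := h9 hx
    exact ⟨l, h8 ho, fun m => (h7 (h8 ho) m).2 ▸ j.π_mem (ho.mem m)⟩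
  · have ho := h10 hx hl hm
    have ho' := h10 hx' hl hm'
    have h11 := ho.unique ho' fun m => by
      rw [← ev, ← ev, j.ev_map (ho.mem m), j.ev_map (ho'.mem m), (h7 hl m).2, hv]
    exact hj.1 (lp_injective h11)
  · obtain ⟨x', h11, ho, -⟩ := Gens.exists_dir (G := G) (h := h) hA (l := 0) (ξ := fun _ => 1) rfl
    obtain ⟨x, rfl⟩ := hs x' (h11 ▸ hA.le)
    set S := Subfield.closure (range α ∪ {j.p.π (s 1 * c) / j.p.π (s 0 * c)}) with hS
    have h12 : ∀ r, α r ∈ S := fun r => Subfield.subset_closure (Or.inl ⟨r, rfl⟩)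
    let W : Subalgebra ℂ F :=
      { carrier := {f | f ∈ j.p.O ∧ j.p.π f ∈ S}
        mul_mem' := fun h h' => ⟨mul_mem h.1 h'.1, j.p.π_mul h.1 h'.1 ▸ mul_mem h.2 h'.2⟩
        add_mem' := fun h h' => ⟨add_mem h.1 h'.1, j.p.π_add h.1 h'.1 ▸ add_mem h.2 h'.2⟩
        algebraMap_mem' := fun r => ⟨algebraMap_mem _ r, by
          rw [j.p.π_alg, ← α.commutes]
          exact h12 _⟩ }
    have h13 : chB (lp (i.map z)).O s 0 ≤ W := chB_le (fun f hf => ⟨h2 hf, h3 f hf ▸ h12 _⟩)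
      fun m => ⟨(h7 (h8 ho) m).1, (h7 (h8 ho) m).2 ▸ by
        revert m
        refine Fin.forall_fin_two.2 ⟨?_, Subfield.subset_closure (Or.inr rfl)⟩
        rw [div_self (h8 ho)]
        exact one_mem _⟩
    have h14 : ∀ b ∈ (lp (j.map x)).O, j.p.π b ∈ S := fun b hb => by
      obtain ⟨u, hu, v, hv, h14, h15⟩ := ho.loc b hb
      have h16 := π_ne j (le_map j x) h14
      rw [← mul_div_cancel_right₀ (j.p.π b) h16, ← j.p.π_mul (j.mem_O hb) (h13 hv).1, h15]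
      exact div_mem (h13 hu).2 (h13 hv).2
    obtain ⟨u, hu, v, hv, h15, h16⟩ := hj.birIm x f
    rw [← mul_div_cancel_right₀ f h15, h16]
    exact div_mem (h14 u hu) (h14 v hv)

/-- **the exceptional divisor is a bundle of lines** -/
theorem exists_pb (hi : IsEmb i) (hj : IsEmb j)
    (hc : ∀ x, (G.r h).map (j.map x) = i.map (π.map x))
    (hs : ∀ x', (lp ((G.r h).map x')).O ≤ i.p.O → x' ∈ range j.map) (hd : E.dim = Z.dim + 1) :
    ∃ (α : Z.F →ₐ[ℂ] E.F) (lam : Fin (G.M + 1) → E.F),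
      PB π α lam ∧ LPb j (mxf ℂ G.f) (mxf ℂ lam) := by
  obtain ⟨α, hp⟩ : Dmn π := dmn_of_surj fun z => by
    obtain ⟨x', h1⟩ := Gens.r_surjective (G := G) (h := h) two_pos (i.map z)
    obtain ⟨x, rfl⟩ := hs x' (h1 ▸ le_map i z)
    exact ⟨x, hi.1 ((hc x).symm.trans h1)⟩
  obtain ⟨x₀⟩ : Nonempty E.Pt := inferInstance
  obtain ⟨k₀, h0⟩ := Gens.exists_gen (h := h) (j.map x₀)
  have h1 := exists_frame hj hc hs hp fun k => j.mem_O (h0 k)
  exact ⟨α, _, ⟨hp, hd, fun z => (h1 z).imp fun _ h => h.1, π.map x₀, h1 _⟩, _,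
    lpbU_mxf j (gn_f h G) (G.ne k₀) fun k => j.mem_O (h0 k)⟩

theorem mem_range_of_isDv (hj : IsDv j (G.m • oP P - mxf ℂ G.f)) (x' : Pts (G.bl h))
    (hx : (lp ((G.r h).map x')).O ≤ i.p.O) : x' ∈ range j.map := by
  by_contra h1
  obtain ⟨a, ha⟩ := exists_pat ((G.r h).map x')
  obtain ⟨k, hk⟩ := Gens.exists_gen x'
  have h2 := (hj.off x' h1).ev_div_ne (((at_mxf (x := x') (P.y_ne a) fun l =>
    (Gens.r_dom x').le (y_mem ha l)).nsmul G.m).sub (at_mxf (G.ne k) hk))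
  rw [one_div, inv_div, ev, (Gens.r_dom x').eq _ (Gens.g_mem ha k)] at h2
  exact h2 (ev_eq_zero hx (G.van k a ((A_le ha).trans hx)))

theorem lh_exc {C : Th} (A : C.Ax) (hi : IsEmb i) {P' : PModel ℂ F} (hb : P' = G.bl h)
    (ge : Chn.Ge P' P) {j : Hom E (sv P')} {e : BD ℂ F} (he : e = G.m • oP P - mxf ℂ G.f)
    (dv : IsDv j e) (comm : (Mor.comp (Chn.mor ge) j).map = (Mor.comp i π).map)
    (hd : E.dim = Z.dim + 1) (hZ : 0 < Z.dim) :
    C.LHAt π (-C.pb j (C.c1 (sv P') e)) 2 := by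
  subst hb he
  have h1 : ∀ x, (Chn.mor ge).map (j.map x) = i.map (π.map x) := fun x => by
    simpa only [Mor.comp_map] using congrFun comm x
  obtain ⟨α, lam, h2, h3⟩ := exists_pb (π := π) hi dv.emb
    (fun x => (Gens.r_eq (bir_dom (Chn.mor_p ge) _)).trans (h1 x)) (mem_range_of_isDv dv) hd
  have h4 := h2.lh A hZ (neg_mem (nsmul_mem (A.man.pb_dg i _ (A.man.hc_dg (sv P))) G.m))
  have h5 : C.c1 (sv (G.bl h)) (oP P) = C.pb (Chn.mor ge) (C.hc (sv P)) := by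
    rw [A.man.c1_dmn (Chn.mor_p ge) oP_mem, pb_id]
  convert h4 using 1
  rw [A.man.c1_sub (nsmul_mem ge G.m) (mxf_mem (gn_f h G)), A.man.c1_nsmul ge, h5, map_sub,
    map_nsmul, A.man.pb_sq h1, A.man.c1_pb j _ (mxf_mem (gn_f h G)) _ h3, map_neg, map_nsmul,
    neg_sub, sub_eq_add_neg]

/-- **Leray-Hirsch for the exceptional divisor of a blow-up** -/
theorem lh_bl {C : Th} (A : C.Ax) {K : Type} [Field K] [Algebra ℂ K] (b : Chn.Bw K)
    (h : SmC b.lo b.i.p 2 2) (g : Gens b.lo b.i.p) (hb : b.hi = g.bl h)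
    (he : b.e = g.m • oP b.lo - mxf ℂ g.f) : b.LH C :=
  lh_exc A b.emb hb b.ge he b.dv b.comm (by rw [b.dimE, b.dimZ]) (by rw [b.dimZ]; decide)

end Crest.Agent.X262.Lh39
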