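import Crest.Agent.X262.Form88.Main
import Crest.Agent.X262.Loc95.Kc

/-!
# Row 262, LH (helper39), part 1: bundles of lines

* `Frame π α lam z σ`, `PB π α lam` : the fibres of `π : E → Z` are embedded as lines by `lam`;
* `PB.gn`, `PB.exists_pl`  : the tautological divisor `mxf lam`, Pluecker coordinates;
* `PB.exists_div` : the divisor which cuts out the diagonal in the fibre square;
* `PB.bnum_eq` : the degree on the generic fibre is one.
-/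

set_option autoImplicit false
set_option linter.style.haveILetI false

open Set Filter Topology

noncomputable section

namespace Crest.Agent.X262.Lh39

open Crest.Agent.X277 Crest.Agent.X277.Lef Crest.Agent.X277.AN.G1 Crest.Agent.X277.BD
open Crest.Agent.X277.BD.Br (At oP at_mxf at_pr mxf_mem pr_mem)
open Crest.Agent.X262.Coh Crest.Agent.X262.Form88

variable {E Z G X : SV} {ι : Type} [Fintype ι]

/-! ### generalities -/

theorem lpbU_mxf (u : Hom G X) {s : ι → X.F} (hs : Cns.Gn X.P s) {i₀ : ι} (h0 : s i₀ ≠ 0)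
    (h4 : ∀ j, s j / s i₀ ∈ u.p.O) :
    LPbU u (mxf ℂ s) (mxf ℂ fun j => u.p.π (s j / s i₀)) (s i₀) := fun q g hg => by
  obtain ⟨i, h3, hi⟩ := hs (u.map q)
  have h5 : u.p.π (s i / s i₀) ≠ 0 := fun h5 => by
    have h6 := u.p.π_mul (h4 i) (u.mem_O (hi i₀))
    rw [h5, zero_mul, div_mul_div_cancel₀ h0, div_self h3, Plc.π_one] at h6
    exact one_ne_zero h6
  have h6 := at_mxf (x := q) (s := fun j => u.p.π (s j / s i₀)) h5 fun l => by
    rw [← Plc.π_div (h4 l) h5, div_div_div_cancel_right₀ h0]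
    exact u.π_mem (hi l)
  have h7 := hg.ev_div_ne (at_mxf h3 hi)
  have h8 := LP.mem_of_ne h7
  rw [u.ev_map h8] at h7
  have h9 := h6.mul_unit h7
  rwa [← u.p.π_mul (u.mem_O h8) (h4 i), div_mul_div_cancel₀ h3] at h9

theorem exists_lpb (u : Hom G X) {s : ι → X.F} (hs : Cns.Gn X.P s) (q₀ : G.Pt) :
    ∃ a' ∈ G.On, ∃ r, At (mxf ℂ s) (u.map q₀) r ∧ LPbU u (mxf ℂ s) a' r := by
  obtain ⟨i₀, h0, h1⟩ := hs (u.map q₀)
  have h2 := lpbU_mxf u hs h0 fun j => u.mem_O (h1 j)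
  exact ⟨_, fun q => (mxf_mem hs (u.map q)).elim fun g hg => ⟨_, h2 q g hg⟩, _, at_mxf h0 h1, h2⟩

theorem π_congr {μ ν : Hom G X} (h : ∀ q, μ.map q = ν.map q) {q₀ : G.Pt} {f : X.F}
    (hf : f ∈ (lp (μ.map q₀)).O) : μ.p.π f = ν.p.π f :=
  sub_eq_zero.1 (eq_zero_of_res ((res_mem' μ q₀ hf).mono fun q hq => by
    have h1 : f ∈ (lp (ν.map q)).O := h q ▸ hq
    rw [ev, LP.v_sub (μ.π_mem hq) (ν.π_mem h1), ← ev, ← ev, ← μ.ev_map hq, ← ν.ev_map h1, h q,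
      sub_self]))

/-! ### bundles of lines -/

/-- `σ` is a frame at `z` of the rank two bundle spanned by `lam`, and the ratio of the `σ l`
separates the points of the fibre -/
structure Frame (π : Hom E Z) (α : Z.F →ₐ[ℂ] E.F) (lam : ι → E.F) (z : Z.Pt) (σ : Fin 2 → E.F) :
    Prop where
  up : ∀ j, ∃ r : Fin 2 → Z.F, (∀ l, r l ∈ (lp z).O) ∧ lam j = ∑ l, α (r l) * σ l
  dn : ∀ l, ∃ r : ι → Z.F, (∀ j, r j ∈ (lp z).O) ∧ σ l = ∑ j, α (r j) * lam j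
  gen : ∀ x, π.map x = z → ∃ l, σ l ≠ 0 ∧ ∀ m, σ m / σ l ∈ (lp x).O
  sep : ∀ x x' l, π.map x = z → π.map x' = z → σ l ≠ 0 → (∀ m, σ m / σ l ∈ (lp x).O) →
    (∀ m, σ m / σ l ∈ (lp x').O) → (∀ m, ev (σ m / σ l) x = ev (σ m / σ l) x') → x = x'

/-- the fibres of `π` are embedded as lines by `lam` -/
structure PB (π : Hom E Z) (α : Z.F →ₐ[ℂ] E.F) (lam : ι → E.F) : Prop where
  hp : π.p = Plc.ofHom α
  dim : E.dim = Z.dim + 1
  fr : ∀ z, ∃ σ, Frame π α lam z σ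
  rat : ∃ z σ, Frame π α lam z σ ∧ ∀ f, f ∈ Subfield.closure (range α ∪ {σ 1 / σ 0})

variable {π : Hom E Z} {α : Z.F →ₐ[ℂ] E.F} {lam : ι → E.F} {z : Z.Pt} {σ : Fin 2 → E.F}
  {x x' : E.Pt}

theorem α_mem (hp : π.p = Plc.ofHom α) (hx : π.map x = z) {r : Z.F} (hr : r ∈ (lp z).O) :
    α r ∈ (lp x).O := Cns.hom_mem hp (hx ▸ hr)

theorem α_ev (hp : π.p = Plc.ofHom α) (hx : π.map x = z) {r : Z.F} (hr : r ∈ (lp z).O) :
    ev (α r) x = ev r z := by
  subst hx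
  exact Cns.hom_ev hp hr

namespace Frame

variable (h : Frame π α lam z σ) (hp : π.p = Plc.ofHom α)
include h hp

theorem lam_mem (hx : π.map x = z) {g : E.F} (hg : ∀ m, σ m / g ∈ (lp x).O) (j : ι) :
    lam j / g ∈ (lp x).O := by
  obtain ⟨r, h1, h2⟩ := h.up j
  rw [h2, Finset.sum_div]
  exact sum_mem fun l _ => mul_div_assoc (α (r l)) _ g ▸ mul_mem (α_mem hp hx (h1 l)) (hg l)

theorem σ_mem (hx : π.map x = z) {g : E.F} (hg : ∀ j, lam j / g ∈ (lp x).O) (l : Fin 2) :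
    σ l / g ∈ (lp x).O := by
  obtain ⟨r, h1, h2⟩ := h.dn l
  rw [h2, Finset.sum_div]
  exact sum_mem fun j _ => mul_div_assoc (α (r j)) _ g ▸ mul_mem (α_mem hp hx (h1 j)) (hg j)

theorem exists_unit (hx : π.map x = z) {l : Fin 2} (h0 : σ l ≠ 0)
    (hg : ∀ m, σ m / σ l ∈ (lp x).O) : ∃ j, ev (lam j / σ l) x ≠ 0 := by
  obtain ⟨r, h1, h2⟩ := h.dn l
  by_contra hc
  push Not at hc
  have h3 : (1 : E.F) = ∑ j, α (r j) * (lam j / σ l) := by
    simp only [← mul_div_assoc, ← Finset.sum_div, ← h2, div_self h0]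
  have h4 := congrArg (lp x).v h3
  rw [LP.v_sum _ fun j _ => mul_mem (α_mem hp hx (h1 j)) (h.lam_mem hp hx hg j), LP.v_one,
    Finset.sum_eq_zero fun j _ => by
      rw [LP.v_mul _ (α_mem hp hx (h1 j)) (h.lam_mem hp hx hg j), ← ev, ← ev, hc j, mul_zero]] at h4
  exact one_ne_zero h4

theorem exists_gen (hx : π.map x = z) {l : Fin 2} (h0 : σ l ≠ 0)
    (hg : ∀ m, σ m / σ l ∈ (lp x).O) :
    ∃ j, ev (lam j / σ l) x ≠ 0 ∧ lam j ≠ 0 ∧ ∀ k, lam k / lam j ∈ (lp x).O := by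
  obtain ⟨j, hj⟩ := h.exists_unit hp hx h0 hg
  refine ⟨j, hj, fun h1 => LP.ne_zero_of_ne hj (by rw [h1, zero_div]), fun k => ?_⟩
  rw [← div_div_div_cancel_right₀ h0]
  exact LP.div_mem (h.lam_mem hp hx hg k) hj

theorem at_σ (hx : π.map x = z) {l : Fin 2} (h0 : σ l ≠ 0) (hg : ∀ m, σ m / σ l ∈ (lp x).O) :
    At (mxf ℂ lam) x (σ l) := by
  obtain ⟨j, h1, h2, h3⟩ := h.exists_gen hp hx h0 hg
  exact (at_mxf h2 h3).of_ev h1

/-- the minor of the frame at two distinct points of the fibre -/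
theorem minor_ne (hx : π.map x = z) (hx' : π.map x' = z) (hne : x ≠ x') {g g' : E.F}
    (hg : At (mxf ℂ lam) x g) (hg' : At (mxf ℂ lam) x' g') :
    ev (σ 0 / g) x * ev (σ 1 / g') x' - ev (σ 1 / g) x * ev (σ 0 / g') x' ≠ 0 := by
  intro h0
  obtain ⟨l, h1, h2⟩ := h.gen x hx
  obtain ⟨l', h1', h2'⟩ := h.gen x' hx'
  have h3 := (h.at_σ hp hx h1 h2).ev_div_ne hg
  have h3' := (h.at_σ hp hx' h1' h2').ev_div_ne hg'
  have h4 := h.σ_mem hp hx fun j => hg.div_mem (mem_Sec_mxf lam j)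
  have h4' := h.σ_mem hp hx' fun j => hg'.div_mem (mem_Sec_mxf lam j)
  have h5 : ∀ a b, ev (σ a / g) x * ev (σ b / g') x' = ev (σ b / g) x * ev (σ a / g') x' := by
    simp only [Fin.forall_fin_two, true_and, and_true]
    exact ⟨sub_eq_zero.1 h0, (sub_eq_zero.1 h0).symm⟩
  have h6 : ev (σ l / g') x' ≠ 0 := fun h6 =>
    mul_ne_zero h3 h3' (by rw [h5, h6, mul_zero])
  refine hne (h.sep x x' l hx hx' h1 h2 (fun m => ?_) fun m => ?_)
  · rw [← div_div_div_cancel_right₀ hg'.ne]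
    exact LP.div_mem (h4' m) h6
  · have h7 := LP.v_div (h4 m) h3
    have h8 := LP.v_div (h4' m) h6
    rw [div_div_div_cancel_right₀ hg.ne] at h7
    rw [div_div_div_cancel_right₀ hg'.ne] at h8
    rw [ev, ev, h7, h8, div_eq_div_iff h3 h6]
    exact (h5 m l).trans (mul_comm _ _)

end Frame

/-- two of the sections form a frame -/
structure Fr2 (π : Hom E Z) (α : Z.F →ₐ[ℂ] E.F) (lam : ι → E.F) (z : Z.Pt) (k l : ι) : Prop where
  up : ∀ j, ∃ A ∈ (lp z).O, ∃ B ∈ (lp z).O, lam j = α A * lam k + α B * lam l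
  sep : ∀ x x', π.map x = z → π.map x' = z → x ≠ x' → ∀ g g', At (mxf ℂ lam) x g →
    At (mxf ℂ lam) x' g' →
      ev (lam k / g) x * ev (lam l / g') x' - ev (lam l / g) x * ev (lam k / g') x' ≠ 0

/-- linear independence over the field of the base -/
def Ind (α : Z.F →ₐ[ℂ] E.F) (σ : Fin 2 → E.F) : Prop :=
  ∀ a b : Z.F, α a * σ 0 + α b * σ 1 = 0 → a = 0 ∧ b = 0

theorem Ind.ext (h : Ind α σ) {a b a' b' : Z.F} (h1 : α a * σ 0 + α b * σ 1 = α a' * σ 0 + α b' * σ 1) :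
    a = a' ∧ b = b' := by
  have h2 := h (a - a') (b - b') (by rw [map_sub, map_sub]; linear_combination h1)
  exact ⟨sub_eq_zero.1 h2.1, sub_eq_zero.1 h2.2⟩

theorem Frame.exists_lin {z' : Z.Pt} {σ' : Fin 2 → E.F} (h : Frame π α lam z σ)
    (h' : Frame π α lam z' σ') (l : Fin 2) : ∃ a b : Z.F, σ l = α a * σ' 0 + α b * σ' 1 := by
  obtain ⟨r, -, h1⟩ := h.dn l
  choose s _ h2 using h'.up
  refine ⟨∑ j, r j * s j 0, ∑ j, r j * s j 1, ?_⟩
  rw [h1, map_sum, map_sum, Finset.sum_mul, Finset.sum_mul, ← Finset.sum_add_distrib]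
  exact Finset.sum_congr rfl fun j _ => by rw [h2, Fin.sum_univ_two, map_mul, map_mul]; ring

theorem Frame.ind {z' : Z.Pt} {σ' : Fin 2 → E.F} (h : Frame π α lam z σ)
    (h' : Frame π α lam z' σ') (hi : Ind α σ') : Ind α σ := by
  choose a b h1 using h.exists_lin h'
  choose c d h2 using h'.exists_lin h
  have h3 := hi.ext (a := 1) (b := 0) (a' := c 0 * a 0 + d 0 * a 1) (b' := c 0 * b 0 + d 0 * b 1)
    (by
      simp only [map_add, map_mul, map_one, map_zero]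
      linear_combination h2 0 + α (c 0) * h1 0 + α (d 0) * h1 1)
  have h4 := hi.ext (a := 0) (b := 1) (a' := c 1 * a 0 + d 1 * a 1) (b' := c 1 * b 0 + d 1 * b 1)
    (by
      simp only [map_add, map_mul, map_one, map_zero]
      linear_combination h2 1 + α (c 1) * h1 0 + α (d 1) * h1 1)
  have h5 : (c 0 * d 1 - d 0 * c 1) * (a 0 * b 1 - a 1 * b 0) = 1 := by
    linear_combination (-(c 1 * b 0 + d 1 * b 1)) * h3.1 - h4.2 + (c 1 * a 0 + d 1 * a 1) * h3.2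
  have h6 := right_ne_zero_of_mul_eq_one h5
  intro s t hst
  have h7 := hi (s * a 0 + t * a 1) (s * b 0 + t * b 1) (by
    simp only [map_add, map_mul]
    linear_combination hst - α s * h1 0 - α t * h1 1)
  exact ⟨(mul_eq_zero.1 (by linear_combination b 1 * h7.1 - a 1 * h7.2 :
      s * (a 0 * b 1 - a 1 * b 0) = 0)).resolve_right h6,
    (mul_eq_zero.1 (by linear_combination a 0 * h7.2 - b 0 * h7.1 :
      t * (a 0 * b 1 - a 1 * b 0) = 0)).resolve_right h6⟩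

/-- Cauchy-Binet -/
theorem Ind.cb (hi : Ind α σ) {r : ι → Fin 2 → Z.F} {s : Fin 2 → ι → Z.F}
    (h2 : ∀ j, lam j = α (r j 0) * σ 0 + α (r j 1) * σ 1) (h4 : ∀ l, σ l = ∑ j, α (s l j) * lam j) :
    (1 : Z.F) = ∑ k, ∑ l, s 0 k * s 1 l * (r k 0 * r l 1 - r k 1 * r l 0) := by
  have h5 : ∀ l, σ l = α (∑ j, s l j * r j 0) * σ 0 + α (∑ j, s l j * r j 1) * σ 1 := fun l => by
    conv_lhs => rw [h4 l]
    rw [map_sum, map_sum, Finset.sum_mul, Finset.sum_mul, ← Finset.sum_add_distrib]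
    exact Finset.sum_congr rfl fun j _ => by rw [h2, map_mul, map_mul]; ring
  have h6 := hi.ext (a := 1) (b := 0) (Eq.trans (by simp) (h5 0))
  have h7 := hi.ext (a := 0) (b := 1) (Eq.trans (by simp) (h5 1))
  have h10 : (1 : Z.F) = (∑ j, s 0 j * r j 0) * (∑ j, s 1 j * r j 1) -
      (∑ j, s 0 j * r j 1) * (∑ j, s 1 j * r j 0) := by
    rw [← h6.1, ← h6.2, ← h7.2, one_mul, zero_mul, sub_zero]
  rw [h10, Finset.sum_mul_sum, Finset.sum_mul_sum, ← Finset.sum_sub_distrib]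
  refine Finset.sum_congr rfl fun k _ => ?_
  rw [← Finset.sum_sub_distrib]
  exact Finset.sum_congr rfl fun l _ => by ring

theorem Frame.exists_fr2 (h : Frame π α lam z σ) (hp : π.p = Plc.ofHom α) (hi : Ind α σ) :
    ∃ k l, Fr2 π α lam z k l := by
  choose r h1 h2 using h.up
  choose s h3 h4 using h.dn
  simp only [Fin.sum_univ_two] at h2
  have h8 : ∀ k l, r k 0 * r l 1 - r k 1 * r l 0 ∈ (lp z).O := fun k l =>
    sub_mem (mul_mem (h1 k 0) (h1 l 1)) (mul_mem (h1 k 1) (h1 l 0))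
  obtain ⟨k, l, h9⟩ : ∃ k l, ev (r k 0 * r l 1 - r k 1 * r l 0) z ≠ 0 := by
    by_contra hc
    push Not at hc
    have h10 := congrArg (lp z).v (hi.cb h2 h4)
    have h11 : ∀ k l, s 0 k * s 1 l * (r k 0 * r l 1 - r k 1 * r l 0) ∈ (lp z).O := fun k l =>
      mul_mem (mul_mem (h3 0 k) (h3 1 l)) (h8 k l)
    rw [LP.v_one, LP.v_sum _ fun k _ => sum_mem fun l _ => h11 k l,
      Finset.sum_eq_zero fun k _ => by
        rw [LP.v_sum _ fun l _ => h11 k l, Finset.sum_eq_zero fun l _ => by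
          rw [LP.v_mul _ (mul_mem (h3 0 k) (h3 1 l)) (h8 k l), ← ev, ← ev, hc, mul_zero]]] at h10
    exact one_ne_zero h10
  have h10 : α (r k 0) * α (r l 1) - α (r k 1) * α (r l 0) ≠ 0 := by
    rw [← map_mul, ← map_mul, ← map_sub, map_ne_zero]
    exact LP.ne_zero_of_ne h9
  refine ⟨k, l, fun j => ⟨_, LP.div_mem (h8 j l) h9, _, LP.div_mem (h8 k j) h9, ?_⟩,
    fun x x' hx hx' hne g g' hg hg' h0 => ?_⟩
  · simp only [map_div₀, map_sub, map_mul]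
    rw [h2 j, h2 k, h2 l, div_mul_eq_mul_div, div_mul_eq_mul_div, ← add_div, eq_div_iff h10]
    ring
  · have h11 : ∀ {y : E.Pt} {g : E.F}, π.map y = z → At (mxf ℂ lam) y g → ∀ j, ev (lam j / g) y =
        ev (r j 0) z * ev (σ 0 / g) y + ev (r j 1) z * ev (σ 1 / g) y := fun {y g} hy hg j => by
      have h12 := h.σ_mem hp hy fun j => hg.div_mem (mem_Sec_mxf lam j)
      rw [h2 j, add_div, mul_div_assoc, mul_div_assoc, ev,
        LP.v_add _ (mul_mem (α_mem hp hy (h1 j 0)) (h12 0)) (mul_mem (α_mem hp hy (h1 j 1)) (h12 1)),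
        LP.v_mul _ (α_mem hp hy (h1 j 0)) (h12 0), LP.v_mul _ (α_mem hp hy (h1 j 1)) (h12 1),
        ← α_ev hp hy (h1 j 0), ← α_ev hp hy (h1 j 1)]
    rw [ev, LP.v_sub (mul_mem (h1 k 0) (h1 l 1)) (mul_mem (h1 k 1) (h1 l 0)),
      LP.v_mul _ (h1 k 0) (h1 l 1), LP.v_mul _ (h1 k 1) (h1 l 0)] at h9
    refine mul_ne_zero h9 (h.minor_ne hp hx hx' hne hg hg') ?_
    rw [h11 hx hg, h11 hx hg, h11 hx' hg', h11 hx' hg'] at h0
    simp only [ev] at h0 ⊢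
    linear_combination h0

namespace PB

variable (h : PB π α lam)
include h

theorem gn : Cns.Gn E.P lam := fun x => by
  obtain ⟨σ, h1⟩ := h.fr (π.map x)
  obtain ⟨l, h2, h3⟩ := h1.gen x rfl
  exact (h1.exists_gen h.hp rfl h2 h3).imp fun j hj => hj.2

theorem on : mxf ℂ lam ∈ E.On := mxf_mem h.gn

theorem dmn : Dmn π := ⟨α, h.hp⟩

/-- the generic fibre -/
theorem generic : ∃ z σ, Frame π α lam z σ ∧ Ind α σ ∧ ∀ l : List (BD ℂ Z.F), l.length = Z.dim →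
    bnum (mxf ℂ lam :: l.map (pb α)) = bnum l := by
  obtain ⟨z, σ, h1, h2⟩ := h.rat
  letI := α.toRingHom.toAlgebra
  haveI : IsScalarTower ℂ Z.F E.F := IsScalarTower.of_algebraMap_eq fun c => (α.commutes c).symm
  haveI : CharZero Z.F := charZero_of_injective_algebraMap (algebraMap ℂ Z.F).injective
  haveI : Algebra.EssFiniteType Z.F E.F := Algebra.EssFiniteType.of_comp ℂ Z.F E.F
  have h3 : IntermediateField.adjoin Z.F {σ 1 / σ 0} = ⊤ := eq_top_iff.2 fun f _ => h2 f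
  have h4 : BD.dim Z.F E.F = 1 := by
    have h4 := Loc.dim_tower ℂ Z.F E.F
    have h5 := h.dim
    dsimp only [SV.dim] at h5
    omega
  have h5 : Transcendental Z.F (σ 1 / σ 0) := fun h5 => by
    have h6 := IntermediateField.adjoin.finiteDimensional h5.isIntegral
    rw [h3] at h6
    have h7 : Module.Finite Z.F E.F := Module.Finite.equiv IntermediateField.topEquiv.toLinearEquiv
    rw [Loc.dim_eq_zero_iff.2 h7] at h4
    exact zero_ne_one h4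
  have h6 : σ 0 ≠ 0 := fun h6 => h5 (by rw [h6, div_zero]; exact isAlgebraic_zero)
  have h7 : Ind α σ := fun a b hab => by
    by_cases hb : b = 0
    · rw [hb, map_zero, zero_mul, add_zero, mul_eq_zero, map_eq_zero] at hab
      exact ⟨hab.resolve_right h6, hb⟩
    · refine absurd ?_ h5
      have h8 : σ 1 / σ 0 = algebraMap Z.F E.F (-a / b) := by
        change _ = α _
        rw [map_div₀, map_neg, div_eq_div_iff h6 ((map_ne_zero α).2 hb)]
        linear_combination hab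
      exact h8 ▸ isAlgebraic_algebraMap _
  refine ⟨z, σ, h1, h7, fun l hl => ?_⟩
  have h8 := Loc.bnum_prj (K := Z.F) [mxf ℂ lam] hl
  have h9 : mxf Z.F ![1, σ 1 / σ 0] + pr Z.F (σ 0) = mxf Z.F lam := by
    have h10 : ∀ m, σ m ∈ (mxf Z.F ![1, σ 1 / σ 0] + pr Z.F (σ 0)).Sec := by
      refine Fin.forall_fin_two.2 ⟨?_, ?_⟩
      · simpa using mul_mem_Sec (mem_Sec_mxf ![1, σ 1 / σ 0] 0) (mem_Sec_pr (σ 0))
      · simpa [h6] using mul_mem_Sec (mem_Sec_mxf ![1, σ 1 / σ 0] 1) (mem_Sec_pr (σ 0))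
    have h11 : ∀ m, σ m ∈ (mxf Z.F lam).Sec := fun m => by
      obtain ⟨r, -, h11⟩ := h1.dn m
      rw [h11]
      exact sum_mem fun j _ => Submodule.smul_mem _ (r j) (mem_Sec_mxf lam j)
    refine le_antisymm (fun V => ?_) fun V => ?_
    · obtain ⟨i, hi⟩ := exists_val_mxf (k := Z.F) (s := ![1, σ 1 / σ 0]) ⟨0, one_ne_zero⟩ V
      rw [val_add, val_pr h6, ← hi, ← map_mul]
      revert i
      refine Fin.forall_fin_two.2 ⟨fun _ => ?_, fun _ => ?_⟩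
      · simpa using h11 0 V
      · simpa [h6] using h11 1 V
    · obtain ⟨x⟩ : Nonempty E.Pt := inferInstance
      obtain ⟨i, hi⟩ := exists_val_mxf (k := Z.F) ((h.gn x).imp fun _ h => h.1) V
      obtain ⟨r, -, h12⟩ := h1.up i
      have h13 : lam i ∈ (mxf Z.F ![1, σ 1 / σ 0] + pr Z.F (σ 0)).Sec := by
        rw [h12]
        exact sum_mem fun m _ => Submodule.smul_mem _ (r m) (h10 m)
      exact hi ▸ h13 V
  rw [List.map_singleton, up_mxf, ← h9, bnum_add, bnum_pr, add_zero, Loc.bnum_pole_rat h5 h3,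
    mul_one] at h8
  exact h8

theorem bnum_eq (l : List (BD ℂ Z.F)) (hl : l.length = Z.dim) :
    bnum (mxf ℂ lam :: l.map (pb α)) = bnum l := h.generic.elim fun _ ⟨_, _, _, h1⟩ => h1 l hl

theorem fr2 (z : Z.Pt) : ∃ k l, Fr2 π α lam z k l := by
  obtain ⟨z₀, σ₀, h1, h2, -⟩ := h.generic
  obtain ⟨σ, h3⟩ := h.fr z
  exact h3.exists_fr2 h.hp (h3.ind h1 h2)

/-- Pluecker coordinates -/
theorem exists_pl : ∃ p : ι × ι → Z.F, (∃ c, p c ≠ 0) ∧ ∀ (k l : ι) (A B : ι → Z.F),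
    (∀ j, lam j = α (A j) * lam k + α (B j) * lam l) →
      ∀ j m, p (j, m) = (A j * B m - A m * B j) * p (k, l) := by
  obtain ⟨z, σ, h1, h2, -⟩ := h.generic
  choose r _ h3 using h1.up
  simp only [Fin.sum_univ_two] at h3
  refine ⟨fun c => r c.1 0 * r c.2 1 - r c.2 0 * r c.1 1, by_contra fun hc => ?_,
    fun k l A B h4 j m => ?_⟩
  · push Not at hc
    choose s _ h4 using h1.dn
    have h10 := h2.cb h3 h4
    rw [Finset.sum_eq_zero fun k _ => Finset.sum_eq_zero fun l _ => by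
      linear_combination s 0 k * s 1 l * hc (k, l)] at h10
    exact one_ne_zero h10
  · have h5 := fun j => h2.ext (a := r j 0) (b := r j 1) (a' := A j * r k 0 + B j * r l 0)
      (b' := A j * r k 1 + B j * r l 1) (by
        simp only [map_add, map_mul]
        linear_combination h4 j - h3 j + α (A j) * h3 k + α (B j) * h3 l)
    dsimp only
    rw [(h5 j).1, (h5 j).2, (h5 m).1, (h5 m).2]
    ring

/-- **the diagonal in the fibre square is cut out by a section of `Λ₁ + Λ₂ - M`** -/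
theorem exists_div : ∃ M ∈ Z.On, ∀ {G : SV} (g₁ g₂ : Hom G E),
    (∀ q, π.map (g₁.map q) = π.map (g₂.map q)) → g₁.map ≠ g₂.map →
    ∃ a₁ ∈ G.On, ∃ a₂ ∈ G.On, ∃ a₃ ∈ G.On, ∃ φ, LPb g₁ (mxf ℂ lam) a₁ ∧ LPb g₂ (mxf ℂ lam) a₂ ∧
      LPb (Mor.comp π g₁) M a₃ ∧ ∀ q, g₁.map q ≠ g₂.map q → At (a₁ + a₂ - a₃ - pr ℂ φ) q 1 := by
  obtain ⟨p, ⟨c₀, hc₀⟩, hp⟩ := h.exists_pl
  have h1 : ∀ {z k l}, Fr2 π α lam z k l → p (k, l) ≠ 0 ∧ ∀ c, p c / p (k, l) ∈ (lp z).O := by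
    intro z k l hf
    choose A hA B hB h1 using hf.up
    have h2 : p (k, l) ≠ 0 := fun h2 => hc₀ (by rw [hp k l A B h1 c₀.1 c₀.2, h2, mul_zero])
    refine ⟨h2, fun c => ?_⟩
    rw [hp k l A B h1 c.1 c.2, mul_div_cancel_right₀ _ h2]
    exact sub_mem (mul_mem (hA _) (hB _)) (mul_mem (hA _) (hB _))
  have h2 : Cns.Gn Z.P p := fun z => (h.fr2 z).elim fun k ⟨l, hf⟩ => ⟨(k, l), h1 hf⟩
  refine ⟨mxf ℂ p, mxf_mem h2, fun {G} g₁ g₂ hg hne => ?_⟩
  obtain ⟨q₀⟩ : Nonempty G.Pt := inferInstance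
  obtain ⟨a₁, ha₁, r₁, h3, h4⟩ := exists_lpb g₁ h.gn q₀
  obtain ⟨a₂, ha₂, r₂, h5, h6⟩ := exists_lpb g₂ h.gn q₀
  obtain ⟨a₃, ha₃, r₃, h7, h8⟩ := exists_lpb (Mor.comp π g₁) h2 q₀
  obtain ⟨k₀, l₀, h9⟩ := h.fr2 ((Mor.comp π g₁).map q₀)
  choose A hA B hB h10 using h9.up
  have hw : ∀ q, (Mor.comp π g₁).map q = (Mor.comp π g₂).map q := fun q => by
    rw [Mor.comp_map, Mor.comp_map, hg]
  have h11 : ∀ (g : Hom G E) (f : Z.F), (Mor.comp π g).p.π f = g.p.π (α f) := fun g f => by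
    change g.p.π (π.p.π f) = _
    rw [h.hp, Plc.ofHom_π]
  have h12 : ∀ (g : Hom G E) (r : E.F), (∀ q, (Mor.comp π g₁).map q = (Mor.comp π g).map q) →
      At (mxf ℂ lam) (g.map q₀) r → ∀ j, g.p.π (lam j / r) =
        (Mor.comp π g₁).p.π (A j) * g.p.π (lam k₀ / r) +
          (Mor.comp π g₁).p.π (B j) * g.p.π (lam l₀ / r) := fun g r h12 h13 j => by
    have h14 := fun j => g.mem_O (h13.div_mem (mem_Sec_mxf lam j))
    have h15 : π.map (g.map q₀) = (Mor.comp π g₁).map q₀ := by rw [h12, Mor.comp_map]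
    have h16 := g.mem_O (α_mem h.hp h15 (hA j))
    have h17 := g.mem_O (α_mem h.hp h15 (hB j))
    rw [π_congr h12 (hA j), π_congr h12 (hB j), h11, h11, ← g.p.π_mul h16 (h14 _),
      ← g.p.π_mul h17 (h14 _), ← g.p.π_add (mul_mem h16 (h14 _)) (mul_mem h17 (h14 _)),
      ← mul_div_assoc, ← mul_div_assoc, ← add_div, ← h10]
  have h13 := (h8 q₀ _ (at_mxf (h1 h9).1 (h1 h9).2)).ne
  refine ⟨a₁, ha₁, a₂, ha₂, a₃, ha₃, (g₁.p.π (lam k₀ / r₁) * g₂.p.π (lam l₀ / r₂) -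
    g₁.p.π (lam l₀ / r₁) * g₂.p.π (lam k₀ / r₂)) / (Mor.comp π g₁).p.π (p (k₀, l₀) / r₃),
    ⟨_, h4⟩, ⟨_, h6⟩, ⟨_, h8⟩, fun q hq => ?_⟩
  obtain ⟨k, l, h14⟩ := h.fr2 ((Mor.comp π g₁).map q)
  obtain ⟨t₁, h15⟩ := h.on (g₁.map q)
  obtain ⟨t₂, h16⟩ := h.on (g₂.map q)
  have h17 := h4 q _ h15
  have h18 := h6 q _ h16
  have h19 := h8 q _ (at_mxf (h1 h14).1 (h1 h14).2)
  have h20 := h14.sep _ _ (Mor.comp_map _ _ _).symm ((hg q).symm.trans (Mor.comp_map _ _ _).symm)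
    hq _ _ h15 h16
  have h21 := fun j => h15.div_mem (mem_Sec_mxf lam j)
  have h22 := fun j => h16.div_mem (mem_Sec_mxf lam j)
  rw [g₁.ev_map (h21 _), g₁.ev_map (h21 _), g₂.ev_map (h22 _), g₂.ev_map (h22 _), ev, ev, ev, ev,
    ← LP.v_mul _ (g₁.π_mem (h21 _)) (g₂.π_mem (h22 _)),
    ← LP.v_mul _ (g₁.π_mem (h21 _)) (g₂.π_mem (h22 _)),
    ← LP.v_sub (mul_mem (g₁.π_mem (h21 _)) (g₂.π_mem (h22 _)))
      (mul_mem (g₁.π_mem (h21 _)) (g₂.π_mem (h22 _)))] at h20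
  have h23 : ∀ j, g₁.p.π (lam j / r₁) = g₁.p.π (lam j / t₁) * g₁.p.π (t₁ / r₁) := fun j => by
    rw [← g₁.p.π_mul (g₁.mem_O (h21 j)) (Plc.mem_of_ne h17.ne), div_mul_div_cancel₀ h15.ne]
  have h24 : ∀ j, g₂.p.π (lam j / r₂) = g₂.p.π (lam j / t₂) * g₂.p.π (t₂ / r₂) := fun j => by
    rw [← g₂.p.π_mul (g₂.mem_O (h22 j)) (Plc.mem_of_ne h18.ne), div_mul_div_cancel₀ h16.ne]
  have h25 : (Mor.comp π g₁).p.π (p (k, l) / r₃) =
      ((Mor.comp π g₁).p.π (A k) * (Mor.comp π g₁).p.π (B l) -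
        (Mor.comp π g₁).p.π (A l) * (Mor.comp π g₁).p.π (B k)) *
          (Mor.comp π g₁).p.π (p (k₀, l₀) / r₃) := by
    have hA' := fun j => (Mor.comp π g₁).mem_O (hA j)
    have hB' := fun j => (Mor.comp π g₁).mem_O (hB j)
    rw [hp k₀ l₀ A B h10 k l, mul_div_assoc, Plc.π_mul _ (sub_mem (mul_mem (hA' _) (hB' _))
      (mul_mem (hA' _) (hB' _))) (Plc.mem_of_ne h13), Plc.π_sub (mul_mem (hA' _) (hB' _))
      (mul_mem (hA' _) (hB' _)), Plc.π_mul _ (hA' _) (hB' _), Plc.π_mul _ (hA' _) (hB' _)]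
  set φ := (g₁.p.π (lam k₀ / r₁) * g₂.p.π (lam l₀ / r₂) -
    g₁.p.π (lam l₀ / r₁) * g₂.p.π (lam k₀ / r₂)) / (Mor.comp π g₁).p.π (p (k₀, l₀) / r₃) with hφ
  have h26 : φ * (Mor.comp π g₁).p.π (p (k, l) / r₃) =
      (g₁.p.π (lam k / t₁) * g₂.p.π (lam l / t₂) - g₁.p.π (lam l / t₁) * g₂.p.π (lam k / t₂)) *
        (g₁.p.π (t₁ / r₁) * g₂.p.π (t₂ / r₂)) := by
    have e1 := h12 g₁ r₁ (fun _ => rfl) h3
    have e2 := h12 g₂ r₂ hw h5
    rw [h25, mul_comm, mul_assoc, hφ, mul_div_cancel₀ _ h13]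
    have e3 := (e1 k).symm.trans (h23 k)
    have e4 := (e1 l).symm.trans (h23 l)
    have e5 := (e2 k).symm.trans (h24 k)
    have e6 := (e2 l).symm.trans (h24 l)
    calc _ = g₁.p.π (lam k / r₁) * g₂.p.π (lam l / r₂) -
          g₁.p.π (lam l / r₁) * g₂.p.π (lam k / r₂) := by rw [e1 k, e1 l, e2 k, e2 l]; ring
      _ = _ := by rw [h23 k, h23 l, h24 k, h24 l]; ring
  have h27 := mul_ne_zero (LP.ne_zero_of_ne h20) (mul_ne_zero h17.ne h18.ne)
  have h28 : φ ≠ 0 := left_ne_zero_of_mul (h26 ▸ h27)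
  have h29 := (((h17.add h18).sub h19).sub (at_pr q h28)).mul_unit h20
  rwa [div_div, mul_comm _ φ, h26, ← mul_div_assoc, div_self h27] at h29

end PB

end Crest.Agent.X262.Lh39
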