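import Crest.Agent.X262.Lh39.Bun

/-!
# Row 262, LH (helper39), part 2: Leray-Hirsch for bundles of lines

* `PB.push_lam` : `π_* Λ = 1` for `Λ = c1 (mxf lam)`;
* `PB.decomp`   : `x = Λ π^* π_* x + π^* (π_* (Λ x) - μ π_* x)` for all classes `x`;
* `PB.lh`       : `C.LHAt π (Λ + π^* c) 2`.
-/

set_option autoImplicit false

noncomputable section

namespace Crest.Agent.X262.Lh39

open Crest.Agent.X277 Crest.Agent.X277.Lef Crest.Agent.X277.AN.G1 Crest.Agent.X277.BD
open Crest.Agent.X277.BD.Br (At oP oP_mem pr_mem pb_mem_On)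
open Crest.Agent.X262.Coh Crest.Agent.X262.Form88

variable {C : Th} {E Z : SV} {ι : Type} [Fintype ι] {π : Hom E Z} {α : Z.F →ₐ[ℂ] E.F}
  {lam : ι → E.F}

namespace PB

variable (h : PB π α lam)
include h

theorem push_one_eq (man : C.MAN) (pd : C.PD) : C.push π 1 = 0 :=
  pd.push_neg man π (k := 0) (by rw [h.dim]; omega) (man.dg_one E)

theorem push_pb_eq (man : C.MAN) (pd : C.PD) (y : C.H Z) : C.push π (C.pb π y) = 0 := by
  rw [pd.push_pb, h.push_one_eq man pd, zero_mul]

/-- the tautological class has degree one on the fibres -/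
theorem push_lam (man : C.MAN) (pd : C.PD) : C.push π (C.c1 E (mxf ℂ lam)) = 1 := by
  obtain ⟨c, hc⟩ := man.dg_zero Z _ (pd.push_dg man π (k := 1) (j := 0) (by rw [h.dim]; omega)
    (man.c1_dg E _ h.on))
  have h1 := pd.push_spec π (C.c1 E (mxf ℂ lam)) (C.hc Z ^ Z.dim)
  have h2 := man.c1_num E (mxf ℂ lam :: (List.replicate Z.dim Z.h).map (pb α)) fun a ha => by
    rcases List.mem_cons.1 ha with rfl | ha
    · exact h.on
    · rw [List.map_replicate] at ha
      exact List.eq_of_mem_replicate ha ▸ pb_mem_On h.hp oP_mem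
  rw [h.bnum_eq _ (by simp), List.map_replicate, List.map_cons, List.map_replicate, List.prod_cons,
    List.prod_replicate] at h2
  rw [hc, ← Algebra.smul_def, map_smul, man.itg_hc, map_pow, man.c1_dmn h.hp oP_mem, h2,
    smul_eq_mul] at h1
  rw [hc, (mul_eq_right₀ Z.dgr_ne).1 h1, map_one]

/-- **Leray-Hirsch**, all degrees -/
theorem decomp (A : C.Ax) (hZ : 0 < Z.dim) : ∃ μ ∈ C.dg Z 1, ∀ x : C.H E,
    x = C.c1 E (mxf ℂ lam) * C.pb π (C.push π x) +
      C.pb π (C.push π (C.c1 E (mxf ℂ lam) * x) - μ * C.push π x) := by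
  have man := A.man
  have pd := A.pd
  obtain ⟨M, hM, h1⟩ := h.exists_div
  refine ⟨C.c1 Z M, man.c1_dg Z M hM, ?_⟩
  set Λ := C.c1 E (mxf ℂ lam) with hΛ
  set κ := C.pb (fst E E) Λ + C.pb (snd E E) Λ - C.pb (fst E E) (C.pb π (C.c1 Z M)) with hκ
  obtain ⟨γ, hγ⟩ := pd.mem_range_push (μ := dia E)
    (b := κ * C.pb (pmap π π) (C.push (dia Z) 1)) fun y hy => by
    have h2 : ∀ {G : SV} (g : Hom G (E.prod E)),
        (∀ q, (fst E E).map (g.map q) = (snd E E).map (g.map q)) → C.pb g y = 0 := fun g hg => by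
      rw [← man.pb_tri (μ := dia E) (ν := Mor.comp (fst E E) g) fun q =>
        Cns.prod_pt_ext _ (by rw [fst_pair, Cns.idM_map, Mor.comp_map])
          (by rw [snd_pair, Cns.idM_map, Mor.comp_map, hg]), hy, map_zero]
    rw [mul_right_comm, supp_itg man pd A.dbl A.bc1 h.dmn h.dmn hZ (κ * y) fun G g hg => ?_,
      map_zero]
    rw [map_mul]
    by_cases h3 : (Mor.comp (fst E E) g).map = (Mor.comp (snd E E) g).map
    · rw [h2 g fun q => by simpa only [Mor.comp_map] using congrFun h3 q, mul_zero]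
    obtain ⟨a₁, ha₁, a₂, ha₂, a₃, ha₃, φ, h4, h5, h6, h7⟩ :=
      h1 (Mor.comp (fst E E) g) (Mor.comp (snd E E) g) (fun q => by
        simpa only [Mor.comp_map] using hg q) h3
    have h8 : C.pb g κ = C.c1 G (a₁ + a₂ - a₃ - pr ℂ φ) := by
      rw [man.c1_sub (sub_mem (add_mem ha₁ ha₂) ha₃) (pr_mem φ), man.c1_pr, sub_zero,
        man.c1_sub (add_mem ha₁ ha₂) ha₃, man.c1_add G _ ha₁ _ ha₂, ← man.c1_pb _ _ h.on _ h4,
        ← man.c1_pb _ _ h.on _ h5, ← man.c1_pb _ _ hM _ h6, man.pb_comp, man.pb_comp, man.pb_comp,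
        man.pb_comp, hκ, map_sub, map_add]
    rw [h8]
    refine c1_mul_eq_zero man pd A.pl0 (sub_mem (sub_mem (add_mem ha₁ ha₂) ha₃) (pr_mem φ))
      fun G' v _ hv => ?_
    rw [← man.pb_comp]
    exact h2 _ fun q => by
      simpa only [Mor.comp_map] using not_not.1 (mt (h7 (v.map q)) (hv q))
  have h2 : ∀ x, γ * x = Λ * C.pb π (C.push π x) +
      C.pb π (C.push π (Λ * x) - C.c1 Z M * C.push π x) := fun x => pd.ext fun a => by
    have h3 := pd.push_spec (dia E) γ (C.pb (fst E E) a * C.pb (snd E E) x)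
    rw [hγ, map_mul (C.pb (dia E)), man.pb_tri (τ := idH E) fun q => fst_pair _ _ q,
      man.pb_tri (τ := idH E) fun q => snd_pair _ _ q, man.pb_id, man.pb_id] at h3
    have h4 := A.diag π π (Λ * a) x
    have h5 := A.diag π π a (Λ * x)
    have h6 := A.diag π π (C.pb π (C.c1 Z M) * a) x
    rw [pd.push_spec, map_mul (C.pb (fst E E))] at h4 h6
    rw [pd.push_spec, map_mul (C.pb (snd E E))] at h5
    have h7 : γ * x * a = γ * (a * x) := by ring
    rw [h7, ← h3, map_sub, map_mul (C.pb π), hκ]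
    have h8 : ∀ p q r s t d : C.H (E.prod E),
        (p + q - r) * d * (s * t) = p * s * t * d + s * (q * t) * d - r * s * t * d := by
      intros; ring
    rw [h8, map_sub, map_add, h4, h5, h6, ← map_add, ← map_sub]
    congr 1
    ring
  have h3 := h2 1
  rw [mul_one, mul_one, h.push_one_eq man pd, h.push_lam man pd, map_zero, mul_zero, mul_zero,
    sub_zero, zero_add, map_one] at h3
  intro x
  rw [← h2, h3, one_mul]

theorem lh (A : C.Ax) (hZ : 0 < Z.dim) {c : C.H Z} (hc : c ∈ C.dg Z 1) :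
    C.LHAt π (C.c1 E (mxf ℂ lam) + C.pb π c) 2 where
  span k hk x hx := by
    obtain ⟨μ, hμ, h1⟩ := h.decomp A hZ
    have h2 := A.man.dg_mul E (A.man.c1_dg E _ h.on) hx
    have h3 : C.push π (C.c1 E (mxf ℂ lam) * x) ∈ C.dg Z k :=
      A.pd.push_dg A.man π (by rw [h.dim]; omega) h2
    obtain rfl | rfl : k = 0 ∨ k = 1 := by omega
    · refine ⟨fun i => if i = 0 then C.push π (C.c1 E (mxf ℂ lam) * x) else 0, fun i => ?_, ?_⟩
      · dsimp only
        split_ifs with hi
        exacts [hi ▸ h3, zero_mem _]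
      · have h4 := h1 x
        rw [A.pd.push_neg A.man π (by rw [h.dim]; omega) hx] at h4
        simpa using h4
    · have h4 : C.push π x ∈ C.dg Z 0 := A.pd.push_dg A.man π (by rw [h.dim]; omega) hx
      refine ⟨fun i => if i = 0 then C.push π x else if i = 1 then
        C.push π (C.c1 E (mxf ℂ lam) * x) - (μ + c) * C.push π x else 0, fun i => ?_, ?_⟩
      · dsimp only
        split_ifs with hi hi'
        exacts [hi ▸ h4, hi' ▸ sub_mem h3 (A.man.dg_mul Z (add_mem hμ hc) h4), zero_mem _]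
      · simp only [Finset.sum_range_succ, Finset.sum_range_zero, if_true, one_ne_zero, if_false,
          zero_add, Nat.sub_zero, pow_one, Nat.sub_self, pow_zero, mul_one, map_sub, map_mul,
          map_add]
        have h5 := h1 x
        rw [map_sub, map_mul (C.pb π)] at h5
        linear_combination h5
  fib y := by
    rw [pow_one, add_mul, map_add, ← A.pd.push_spec, h.push_lam A.man A.pd, one_mul, ← map_mul,
      ← A.pd.itg_push π, h.push_pb_eq A.man A.pd, map_zero, add_zero]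

end PB

end Crest.Agent.X262.Lh39
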